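import Vale.Agent.P183C.Main
import Vale.Agent.P183LT.KGrp

/-!
The theorem of Palfy and Pudlak for a monoid of maps, keeping track of the group.
-/

namespace Vale.Agent.P183PK

open Function Vale.Agent.P183C Vale.Agent.P183NK Vale.Agent.P183LT

/-- `κ` is an order isomorphism onto the equivalences kept by all maps of the monoid `M`. -/
structure RepM {L X : Type} [LE L] (M : Set (X → X)) (κ : L → Setoid X) : Prop where
  id_mem : id ∈ M
  comp : ∀ {f g}, f ∈ M → g ∈ M → f ∘ g ∈ M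
  keeps : ∀ {f}, f ∈ M → ∀ a, Keeps f (κ a)
  le_iff : ∀ a b, κ a ≤ κ b ↔ a ≤ b
  full : ∀ r : Setoid X, (∀ f ∈ M, Keeps f r) → ∃ a, κ a = r

/-- All subgroups of the monoid `M` have their simple sections in `Φ`. -/
def KM (Φ : Fam) {X : Type} (M : Set (X → X)) : Prop :=
  ∀ (G : Type) [Group G] (φ : G → X → X), Injective φ → (∀ g h, φ (g * h) = φ g ∘ φ h) →
    (∀ g, φ g ∈ M) → KGrp Φ G

section

variable {L X : Type} [Lattice L] {M : Set (X → X)} {κ : L → Setoid X}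

theorem RepM.rep (h : RepM M κ) : IsRep κ :=
  ⟨h.le_iff, fun r hr => h.full r fun f hf => hr f (h.keeps hf)⟩

theorem RepM.iterate (h : RepM M κ) {f : X → X} (hf : f ∈ M) (n : ℕ) : f^[n] ∈ M := by
  induction n with
  | zero => exact h.id_mem
  | succ n ih => rw [iterate_succ]; exact h.comp ih hf

/-- The monoid induced on the fixed points of `e`. -/
def ind (M : Set (X → X)) (e : X → X) : Set ({x // e x = x} → {x // e x = x}) :=
  {g | ∃ f ∈ M, ∀ u, (g u).1 = e (f u.1)}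

theorem KM.ind {Φ : Fam} (hK : KM Φ M) (h : RepM M κ) {e : X → X} (he : e ∈ M)
    (hee : ∀ x, e (e x) = e x) : KM Φ (ind M e) := fun G _ φ h1 h2 h3 => by
  refine hK G (fun g x => (φ g ⟨e x, hee x⟩).1) (fun g g' hg => h1 (funext fun u => ?_))
    (fun g g' => funext fun x => ?_) fun g => ?_
  · have := congrFun hg u.1
    simp only [u.2] at this
    exact Subtype.ext this
  · simp only [h2, comp, (φ g' ⟨e x, hee x⟩).2]
  · obtain ⟨f, hf, hg⟩ := h3 g
    have : (fun x => (φ g ⟨e x, hee x⟩).1) = e ∘ f ∘ e := funext fun x => hg _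
    rw [this]
    exact h.comp he (h.comp hf he)

variable [BoundedOrder L]

/-- Restriction to the set of fixed points of an idempotent map. -/
theorem restrict (hS : Simple L) (h : RepM M κ) {e : X → X} (he : e ∈ M)
    (hee : ∀ x, e (e x) = e x) :
    RepM (ind M e) (fun a => (κ a).comap (Subtype.val : {x // e x = x} → X)) ∨ ∀ x y, e x = e y := by
  set κ' : L → Setoid {x // e x = x} := fun a => (κ a).comap Subtype.val
  have hinf : ∀ a b, κ' (a ⊓ b) = κ' a ⊓ κ' b := by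
    intro a b
    ext x y
    change κ (a ⊓ b) x.1 y.1 ↔ κ a x.1 y.1 ∧ κ b x.1 y.1
    rw [h.rep.map_inf, Setoid.inf_iff_and]
  have hmono : ∀ a b, a ≤ b → κ' a ≤ κ' b := fun a b hab x y hxy => (h.le_iff a b).2 hab hxy
  have hsup : ∀ a b, κ' (a ⊔ b) = κ' a ⊔ κ' b := by
    intro a b
    refine le_antisymm ?_ (sup_le (hmono _ _ le_sup_left) (hmono _ _ le_sup_right))
    have key : ∀ x y, (κ a ⊔ κ b) x y → (κ' a ⊔ κ' b) ⟨e x, hee x⟩ ⟨e y, hee y⟩ := by
      intro x y hxy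
      rw [Setoid.sup_eq_eqvGen] at hxy
      induction hxy with
      | rel x y hxy =>
        rcases hxy with hxy | hxy
        · exact (le_sup_left : κ' a ≤ κ' a ⊔ κ' b) (h.keeps he a _ _ hxy)
        · exact (le_sup_right : κ' b ≤ κ' a ⊔ κ' b) (h.keeps he b _ _ hxy)
      | refl x => exact (κ' a ⊔ κ' b).refl' _
      | symm x y _ ih => exact (κ' a ⊔ κ' b).symm' ih
      | trans x y z _ _ ih1 ih2 => exact (κ' a ⊔ κ' b).trans' ih1 ih2
    intro x y hxy
    have h1 : (κ a ⊔ κ b) x.1 y.1 := by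
      rw [← h.rep.map_sup]
      exact hxy
    have h2 := key _ _ h1
    have ex : (⟨e x.1, hee x.1⟩ : {x // e x = x}) = x := Subtype.ext x.2
    have ey : (⟨e y.1, hee y.1⟩ : {x // e x = x}) = y := Subtype.ext y.2
    rwa [ex, ey] at h2
  by_cases hinj : Injective κ'
  · refine Or.inl ⟨⟨id, h.id_mem, fun u => u.2.symm⟩, ?_, ?_,
      fun a b => ⟨fun hab => ?_, hmono a b⟩, fun r hr => ?_⟩
    · rintro g g' ⟨f, hf, hg⟩ ⟨f', hf', hg'⟩
      exact ⟨f ∘ e ∘ f', h.comp hf (h.comp he hf'), fun u => by rw [comp, hg, hg']; rfl⟩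
    · rintro g ⟨f, hf, hg⟩ a u v huv
      change κ a (g u).1 (g v).1
      rw [hg, hg]
      exact h.keeps he a _ _ (h.keeps hf a _ _ huv)
    · have : κ' (a ⊓ b) = κ' a := by rw [hinf, inf_eq_left.2 hab]
      exact inf_eq_left.1 (hinj this)
    · let s : Setoid X :=
        ⟨fun x y => ∀ f ∈ M, r ⟨e (f x), hee _⟩ ⟨e (f y), hee _⟩,
          ⟨fun x f _ => r.refl' _, fun hxy f hf => r.symm' (hxy f hf),
            fun h1 h2 f hf => r.trans' (h1 f hf) (h2 f hf)⟩⟩
      obtain ⟨a, ha⟩ := h.full s fun g hg x y hxy f hf => hxy (f ∘ g) (h.comp hf hg)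
      refine ⟨a, ?_⟩
      ext x y
      change κ a x.1 y.1 ↔ _
      rw [ha]
      constructor
      · intro hxy
        have h2 := hxy id h.id_mem
        have ex : (⟨e (id x.1), hee _⟩ : {x // e x = x}) = x := Subtype.ext x.2
        have ey : (⟨e (id y.1), hee _⟩ : {x // e x = x}) = y := Subtype.ext y.2
        rwa [ex, ey] at h2
      · intro hxy f hf
        exact hr (fun u => ⟨e (f u.1), hee _⟩) ⟨f, hf, fun _ => rfl⟩ x y hxy
  · right
    simp only [Injective, not_forall] at hinj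
    obtain ⟨a, b, hab, hne⟩ := hinj
    have h1 : Setoid.ker κ' ⊥ ⊤ := by
      refine hS (Setoid.ker κ') (fun a b c hab => ?_) (fun a b c hab => ?_) a b hab hne
      · rw [Setoid.ker_def] at hab ⊢
        rw [hsup, hsup, hab]
      · rw [Setoid.ker_def] at hab ⊢
        rw [hinf, hinf, hab]
    rw [Setoid.ker_def] at h1
    intro x y
    have h2 : κ' ⊤ ⟨e x, hee x⟩ ⟨e y, hee y⟩ := by
      change κ ⊤ (e x) (e y)
      rw [h.rep.map_top]
      trivial
    rw [← h1] at h2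
    change κ ⊥ (e x) (e y) at h2
    rw [h.rep.map_bot] at h2
    exact h2

end

/-- A representation of least size: all idempotent maps are constant or the identity. -/
theorem exists_minimal {Φ : Fam} {L : Type} [Lattice L] [BoundedOrder L] (hS : Simple L)
    (X : Type) (hX : Finite X) (M : Set (X → X)) (κ : L → Setoid X) (hκ : RepM M κ) (hK : KM Φ M) :
    ∃ (X : Type) (_ : Finite X) (M : Set (X → X)) (κ : L → Setoid X), RepM M κ ∧ KM Φ M ∧
      ∀ e ∈ M, (∀ x, e (e x) = e x) → (∀ x, e x = x) ∨ ∀ x y, e x = e y := by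
  generalize hn : Nat.card X = n
  induction n using Nat.strong_induction_on generalizing X with
  | _ n ih =>
    by_cases hc : ∀ e ∈ M, (∀ x, e (e x) = e x) → (∀ x, e x = x) ∨ ∀ x y, e x = e y
    · exact ⟨X, hX, M, κ, hκ, hK, hc⟩
    · simp only [not_forall, not_or] at hc
      obtain ⟨e, he, hee, ⟨x, hx⟩, h2⟩ := hc
      rcases restrict hS hκ he hee with h3 | h3
      · refine ih _ ?_ _ inferInstance _ _ h3 (hK.ind hκ he hee) rfl
        rw [← hn]
        exact Finite.card_subtype_lt hx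
      · exact absurd h3 (by simpa only [not_forall] using h2)

section

variable {L X : Type} [Lattice L] [BoundedOrder L] [Finite X] {M : Set (X → X)}
  {κ : L → Setoid X}

/-- In a representation of least size all maps are injective or constant. -/
theorem inj_or_const (h : RepM M κ)
    (hmin : ∀ e ∈ M, (∀ x, e (e x) = e x) → (∀ x, e x = x) ∨ ∀ x y, e x = e y)
    {c₀ c₁ : L} (h₀ : IsCoatom c₀) (h₁ : IsCoatom c₁) (hc : c₀ ⊓ c₁ = ⊥) :
    ∀ f ∈ M, Injective f ∨ ∀ x y, f x = f y := by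
  have hcomp : ∀ f g, f ∈ M → g ∈ M → ¬ Injective f → ¬ Injective (f ∘ g) := by
    intro f g _ _ hf hfg
    have hg : Surjective g := Finite.injective_iff_surjective.1 hfg.of_comp
    exact hf (Injective.of_comp_right hfg hg)
  have main : ∀ c, IsCoatom c → ∀ x y, ∀ f ∈ M, ¬ Injective f → κ c (f x) (f y) := by
    intro c hcoat
    let s : Setoid X :=
      ⟨fun x y => ∀ f ∈ M, ¬ Injective f → κ c (f x) (f y),
        ⟨fun x f _ _ => (κ c).refl' _, fun hxy f hf hn => (κ c).symm' (hxy f hf hn),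
          fun h1 h2 f hf hn => (κ c).trans' (h1 f hf hn) (h2 f hf hn)⟩⟩
    obtain ⟨a, ha⟩ := h.full s fun g hg x y hxy f hf hn =>
      hxy (f ∘ g) (h.comp hf hg) (hcomp f g hf hg hn)
    have hca : c ≤ a := by
      rw [← h.le_iff, ha]
      exact fun {x y} hxy f hf _ => h.keeps hf c _ _ hxy
    rcases hca.eq_or_lt with hca | hca
    · exfalso
      subst hca
      have hstep : ∀ p : {p : X × X // ¬ κ c p.1 p.2}, ∃ q : {p : X × X // ¬ κ c p.1 p.2},
          ∃ f ∈ M, ¬ Injective f ∧ f p.1.1 = q.1.1 ∧ f p.1.2 = q.1.2 := by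
        intro p
        have hp : ¬ s p.1.1 p.1.2 := ha ▸ p.2
        have hp' : ¬ ∀ f ∈ M, ¬ Injective f → κ c (f p.1.1) (f p.1.2) := hp
        simp only [not_forall] at hp'
        obtain ⟨f, hf, hn, hq⟩ := hp'
        exact ⟨⟨(f p.1.1, f p.1.2), hq⟩, f, hf, hn, rfl, rfl⟩
      choose st hst using hstep
      have hit : ∀ n p, ∃ f ∈ M, ¬ Injective f ∧ f p.1.1 = (st^[n + 1] p).1.1 ∧
          f p.1.2 = (st^[n + 1] p).1.2 := by
        intro n p
        induction n with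
        | zero => exact hst p
        | succ n ih =>
          obtain ⟨f, hf, hn, h1, h2⟩ := ih
          obtain ⟨g, hg, -, h3, h4⟩ := hst (st^[n + 1] p)
          refine ⟨g ∘ f, h.comp hg hf, fun hi => hn hi.of_comp, ?_, ?_⟩
          · rw [iterate_succ_apply' st (n + 1), ← h3, ← h1]
            rfl
          · rw [iterate_succ_apply' st (n + 1), ← h4, ← h2]
            rfl
      have hne : κ c ≠ ⊤ := fun hh => hcoat.1 (h.rep.injective (hh.trans h.rep.map_top.symm))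
      rw [Ne, Setoid.eq_top_iff] at hne
      simp only [not_forall] at hne
      obtain ⟨x, y, hxy⟩ := hne
      obtain ⟨n, hn, hper⟩ := exists_idem st
      obtain ⟨n, rfl⟩ : ∃ m, n = m + 1 := ⟨n - 1, by omega⟩
      obtain ⟨f, hf, hni, h1, h2⟩ := hit n (st^[n + 1] ⟨(x, y), hxy⟩)
      rw [hper] at h1 h2
      obtain ⟨m, hm, hidem⟩ := exists_idem f
      rcases hmin _ (h.iterate hf m) hidem with h3 | h3
      · obtain ⟨m, rfl⟩ : ∃ k, m = k + 1 := ⟨m - 1, by omega⟩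
        refine hni fun u v huv => ?_
        rw [← h3 u, ← h3 v, iterate_succ_apply, iterate_succ_apply, huv]
      · have h4 := h3 (st^[n + 1] ⟨(x, y), hxy⟩).1.1 (st^[n + 1] ⟨(x, y), hxy⟩).1.2
        rw [iterate_fixed h1, iterate_fixed h2] at h4
        exact (st^[n + 1] ⟨(x, y), hxy⟩).2 (h4 ▸ (κ c).refl' _)
    · intro x y
      have : s x y := by
        rw [← ha, hcoat.2 a hca, h.rep.map_top]
        trivial
      exact this
  intro f hf
  by_cases hi : Injective f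
  · exact Or.inl hi
  · refine Or.inr fun x y => ?_
    have : κ (c₀ ⊓ c₁) (f x) (f y) := by
      rw [h.rep.map_inf]
      exact Setoid.inf_iff_and.2 ⟨main _ h₀ x y f hf hi, main _ h₁ x y f hf hi⟩
    rw [hc, h.rep.map_bot] at this
    exact this

omit [BoundedOrder L] in
/-- The permutations in `M`. -/
def RepM.Grp (h : RepM M κ) : Subgroup (Equiv.Perm X) where
  carrier := {σ | ⇑σ ∈ M}
  mul_mem' := fun {a b} ha hb => h.comp (f := a) (g := b) ha hb
  one_mem' := h.id_mem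
  inv_mem' := by
    intro σ hσ
    have h1 : σ⁻¹ = σ ^ (orderOf σ - 1) := by
      have h2 : σ ^ (orderOf σ - 1) * σ = 1 := by
        rw [← pow_succ, Nat.sub_add_cancel (orderOf_pos σ), pow_orderOf_eq_one]
      exact (eq_inv_of_mul_eq_one_left h2).symm
    change ⇑σ⁻¹ ∈ M
    rw [h1, Equiv.Perm.coe_pow]
    exact h.iterate hσ _

omit [BoundedOrder L] in
theorem full_grp (h : RepM M κ) (hic : ∀ f ∈ M, Injective f ∨ ∀ x y, f x = f y)
    (r : Setoid X) (hr : ∀ σ ∈ h.Grp, Keeps σ r) : ∃ a, κ a = r := by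
  refine h.full r fun f hf => ?_
  rcases hic f hf with hi | hi
  · exact hr (Equiv.ofBijective f ⟨hi, Finite.injective_iff_surjective.1 hi⟩) hf
  · intro x y _
    rw [hi x y]

/-- Without modular coatoms the group is transitive. -/
theorem transitive (h : RepM M κ) (hic : ∀ f ∈ M, Injective f ∨ ∀ x y, f x = f y)
    (hT : ∀ c : L, IsCoatom c → ∃ y y', y ≤ y' ∧ y ⊔ (c ⊓ y') ≠ (y ⊔ c) ⊓ y') (x₀ x : X) :
    ∃ σ ∈ h.Grp, σ x₀ = x := by
  by_contra hx
  let O : X → Prop := fun z => ∃ σ ∈ h.Grp, σ x₀ = z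
  have hO : ∀ σ ∈ h.Grp, ∀ z, O (σ z) ↔ O z := by
    intro σ hσ z
    constructor
    · rintro ⟨τ, hτ, hz⟩
      exact ⟨σ⁻¹ * τ, mul_mem (inv_mem hσ) hτ, by simp [hz]⟩
    · rintro ⟨τ, hτ, hz⟩
      exact ⟨σ * τ, mul_mem hσ hτ, by simp [hz]⟩
  have hO0 : O x₀ := ⟨1, one_mem _, rfl⟩
  obtain ⟨c, hc⟩ := full_grp h hic (Setoid.ker O) fun σ hσ u v huv => by
    rw [Setoid.ker_def] at huv ⊢
    rw [propext (hO σ hσ u), propext (hO σ hσ v), huv]
  have hker : ∀ u v, κ c u v ↔ (O u ↔ O v) := by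
    intro u v
    rw [hc, Setoid.ker_def, eq_iff_iff]
  have hcross : ∀ y : L, ¬ y ≤ c → ∃ p q, O p ∧ ¬ O q ∧ κ y p q := by
    intro y hy
    rw [← h.le_iff, Setoid.le_def] at hy
    simp only [not_forall] at hy
    obtain ⟨p, q, hpq, hn⟩ := hy
    rw [hker] at hn
    by_cases hp : O p
    · exact ⟨p, q, hp, fun hq => hn (iff_of_true hp hq), hpq⟩
    · refine ⟨q, p, ?_, hp, (κ y).symm' hpq⟩
      by_contra hq
      exact hn (iff_of_false hp hq)
  have htop : ∀ y : L, ¬ y ≤ c → y ⊔ c = ⊤ := by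
    intro y hy
    obtain ⟨p, q, hp, hq, hpq⟩ := hcross y hy
    have hy' : κ (y ⊔ c) p q := (h.le_iff _ _).2 le_sup_left hpq
    have hc' : ∀ u v, (O u ↔ O v) → κ (y ⊔ c) u v := fun u v huv =>
      (h.le_iff _ _).2 le_sup_right ((hker u v).2 huv)
    have hall : ∀ u, κ (y ⊔ c) u p := by
      intro u
      by_cases hu : O u
      · exact hc' _ _ (iff_of_true hu hp)
      · exact (κ _).trans' (hc' _ _ (iff_of_false hu hq)) ((κ _).symm' hy')
    refine h.rep.injective ?_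
    rw [h.rep.map_top, Setoid.eq_top_iff]
    exact fun u v => (κ _).trans' (hall u) ((κ _).symm' (hall v))
  have hcoat : IsCoatom c := by
    refine ⟨fun hh => ?_, fun b hb => ?_⟩
    · have : κ c x₀ x := by
        rw [hh, h.rep.map_top]
        trivial
      exact hx (((hker _ _).1 this).1 hO0)
    · rw [← htop b (not_le_of_gt hb), sup_eq_left.2 hb.le]
  obtain ⟨y, y', hyy, hne⟩ := hT c hcoat
  apply hne
  by_cases hy : y ≤ c
  · rw [sup_eq_right.2 hy, sup_eq_right.2 (le_inf hy hyy)]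
  · rw [htop y hy, top_inf_eq]
    refine le_antisymm (sup_le hyy inf_le_right) ?_
    obtain ⟨p₀, q₀, ⟨τ, hτ, hp₀⟩, hq₀, hpq₀⟩ := hcross y hy
    have hsame : ∀ u v, κ y' u v → (O u ↔ O v) → κ (y ⊔ c ⊓ y') u v := by
      intro u v h1 h2
      refine (h.le_iff _ _).2 le_sup_right ?_
      rw [h.rep.map_inf]
      exact Setoid.inf_iff_and.2 ⟨(hker u v).2 h2, h1⟩
    have hdiff : ∀ p q, κ y' p q → O p → ¬ O q → κ (y ⊔ c ⊓ y') p q := by
      rintro p q h1 ⟨σ, hσ, hp⟩ hq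
      have hg : σ * τ⁻¹ ∈ h.Grp := mul_mem hσ (inv_mem hτ)
      have h2 : κ y ((σ * τ⁻¹) p₀) ((σ * τ⁻¹) q₀) := h.keeps hg y _ _ hpq₀
      have h3 : (σ * τ⁻¹) p₀ = p := by simp [← hp₀, hp]
      rw [h3] at h2
      refine (κ _).trans' ((h.le_iff _ _).2 le_sup_left h2) (hsame _ _ ?_ ?_)
      · exact (κ _).trans' ((κ _).symm' ((h.le_iff _ _).2 hyy h2)) h1
      · exact iff_of_false (fun hh => hq₀ ((hO _ hg _).1 hh)) hq
    rw [← h.le_iff]
    intro u v huv
    by_cases hu : O u <;> by_cases hv : O v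
    · exact hsame u v huv (iff_of_true hu hv)
    · exact hdiff u v huv hu hv
    · exact (κ _).symm' (hdiff v u ((κ _).symm' huv) hv hu)
    · exact hsame u v huv (iff_of_false hu hv)

omit [BoundedOrder L] in
/-- For a transitive group the lattice is the interval above a point stabiliser. -/
theorem gi_of_transitive {Φ : Fam} (h : RepM M κ) (hK : KM Φ M)
    (hic : ∀ f ∈ M, Injective f ∨ ∀ x y, f x = f y)
    (x₀ : X) (htr : ∀ x, ∃ σ ∈ h.Grp, σ x₀ = x) : GIK Φ L := by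
  let S : L → Subgroup (h.Grp) := fun a =>
    { carrier := {g | κ a (g.1 x₀) x₀}
      mul_mem' := fun {g g'} hg hg' => (κ a).trans' (h.keeps g.2 a _ _ hg') hg
      one_mem' := (κ a).refl' _
      inv_mem' := fun {g} hg => by
        have := h.keeps (g⁻¹).2 a _ _ hg
        refine (κ a).symm' ?_
        simpa using this }
  let H : Subgroup (h.Grp) :=
    { carrier := {g | g.1 x₀ = x₀}
      mul_mem' := fun {g g'} hg hg' => by
        change g.1 (g'.1 x₀) = x₀
        rw [hg', hg]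
      one_mem' := rfl
      inv_mem' := fun {g} hg => by
        change g.1⁻¹ x₀ = x₀
        rw [Equiv.Perm.inv_eq_iff_eq]
        exact Eq.symm hg }
  have hHS : ∀ a, H ≤ S a := by
    intro a g hg
    change κ a (g.1 x₀) x₀
    rw [show g.1 x₀ = x₀ from hg]
  have hle : ∀ a b, S a ≤ S b ↔ a ≤ b := by
    intro a b
    refine ⟨fun hab => ?_, fun hab g hg => (h.le_iff a b).2 hab hg⟩
    rw [← h.le_iff]
    intro u v huv
    obtain ⟨σ, hσ, rfl⟩ := htr u
    obtain ⟨τ, hτ, rfl⟩ := htr v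
    have h1 : (⟨τ⁻¹ * σ, mul_mem (inv_mem hτ) hσ⟩ : h.Grp) ∈ S a := by
      have := h.keeps (inv_mem hτ : τ⁻¹ ∈ h.Grp) a _ _ huv
      change κ a ((τ⁻¹ * σ) x₀) x₀
      simpa using this
    have h2 : κ b ((τ⁻¹ * σ) x₀) x₀ := hab h1
    have := h.keeps hτ b _ _ h2
    simpa using this
  let F : L ↪o {K : Subgroup (h.Grp) // H ≤ K} :=
    OrderEmbedding.ofMapLEIff (fun a => ⟨S a, hHS a⟩) hle
  refine ⟨h.Grp, inferInstance, inferInstance, H,
    hK _ (fun g => g.1) (fun g g' e => Subtype.ext (Equiv.coe_inj.1 e)) (fun _ _ => rfl)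
      fun g => g.2, ⟨RelIso.ofSurjective F ?_⟩⟩
  rintro ⟨K, hK⟩
  have hwd : ∀ g g' : h.Grp, g.1 x₀ = g'.1 x₀ → g⁻¹ * g' ∈ K := by
    intro g g' hg
    refine hK ?_
    change g.1⁻¹ (g'.1 x₀) = x₀
    rw [← hg]
    simp
  let r : Setoid X :=
    ⟨fun u v => ∃ g g' : h.Grp, g.1 x₀ = u ∧ g'.1 x₀ = v ∧ g⁻¹ * g' ∈ K,
      ⟨fun u => by
        obtain ⟨σ, hσ, hu⟩ := htr u
        exact ⟨⟨σ, hσ⟩, ⟨σ, hσ⟩, hu, hu, by simp⟩,
      fun ⟨g, g', h1, h2, h3⟩ => ⟨g', g, h2, h1, by simpa using inv_mem h3⟩,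
      fun ⟨g, g', h1, h2, h3⟩ ⟨k, k', h4, h5, h6⟩ => ⟨g, k', h1, h5, by
        have := mul_mem (mul_mem h3 (hwd g' k (h2.trans h4.symm))) h6
        simpa [mul_assoc] using this⟩⟩⟩
  obtain ⟨a, ha⟩ := full_grp h hic r fun σ hσ u v ⟨g, g', h1, h2, h3⟩ =>
    ⟨⟨σ, hσ⟩ * g, ⟨σ, hσ⟩ * g', by simp [h1], by simp [h2], by simpa [mul_assoc] using h3⟩
  refine ⟨a, Subtype.ext ?_⟩
  ext g
  change κ a (g.1 x₀) x₀ ↔ g ∈ K
  rw [ha]
  constructor
  · rintro ⟨k, k', h1, h2, h3⟩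
    have h4 := hwd k g h1
    have h5 : k' ∈ K := hK h2
    have := mul_mem (mul_mem h5 (inv_mem h3)) h4
    simpa [mul_assoc] using this
  · intro hg
    exact ⟨g, 1, rfl, rfl, by simpa using hg⟩

end

theorem gi_of_rep {Φ : Fam} {L : Type} [Lattice L] [BoundedOrder L] (hS : Simple L)
    {c₀ c₁ : L} (h₀ : IsCoatom c₀) (h₁ : IsCoatom c₁) (hc : c₀ ⊓ c₁ = ⊥)
    (hT : ∀ c : L, IsCoatom c → ∃ y y', y ≤ y' ∧ y ⊔ (c ⊓ y') ≠ (y ⊔ c) ⊓ y')
    (X : Type) (hX : Finite X) (M : Set (X → X)) (κ : L → Setoid X) (hκ : RepM M κ) (hK : KM Φ M) :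
    GIK Φ L := by
  obtain ⟨X, hX, M, κ, hκ, hK, hmin⟩ := exists_minimal hS X hX M κ hκ hK
  have hic := inj_or_const hκ hmin h₀ h₁ hc
  have hne : κ c₀ ≠ ⊤ := fun hh => h₀.1 (hκ.rep.injective (hh.trans hκ.rep.map_top.symm))
  rw [Ne, Setoid.eq_top_iff] at hne
  simp only [not_forall] at hne
  obtain ⟨x₀, -, -⟩ := hne
  exact gi_of_transitive hκ hK hic x₀ (transitive hκ hic hT x₀)

end Vale.Agent.P183PK
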