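import Vale.Agent.P183PK.Defs
import Vale.Agent.P183PK.Rep

/-!
From algebras to groups, keeping track of the simple sections.
-/

namespace Vale.Agent.P183PK

open Function Vale.Agent.P183 Vale.Agent.P183C Vale.Agent.P183NK Vale.Agent.P183LT

theorem Pol1.comp {A : FiniteAlgebra} {f g : A.carrier → A.carrier} (hf : Pol1 A f)
    (hg : Pol1 A g) : Pol1 A (f ∘ g) := by
  induction hf with
  | id => exact hg
  | const c => exact .const c
  | op i u _ ih => exact .op i (fun j => u j ∘ g) ih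

theorem Pol1.keeps {A : FiniteAlgebra} {f : A.carrier → A.carrier} (hf : Pol1 A f)
    {r : Setoid A.carrier} (hr : A.IsCongruence r) : Keeps f r := by
  induction hf with
  | id => exact fun _ _ h => h
  | const c => exact fun _ _ _ => r.refl' _
  | op i u _ ih => exact fun x y h => hr i _ _ fun j => ih j x y h

theorem repM {L : Type} [LE L] {A : FiniteAlgebra} (e : L ≃o A.Con) :
    RepM {f | Pol1 A f} fun a => (e a).1 := by
  classical
  refine ⟨.id, Pol1.comp, fun hf a => hf.keeps (e a).2, fun a b => e.le_iff_le, fun r hr => ?_⟩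
  have hc : A.IsCongruence r := by
    intro i x y hxy
    have key : ∀ s : Finset (Fin (A.arity i)),
        r (A.op i x) (A.op i fun j => if j ∈ s then y j else x j) := by
      intro s
      induction s using Finset.induction_on with
      | empty => simp
      | insert k s hk ih =>
        refine r.trans' ih ?_
        have hf : Pol1 A fun t => A.op i fun j =>
            (if j = k then id else fun _ => if j ∈ s then y j else x j) t :=
          .op i _ fun j => by
            split_ifs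
            exacts [.id, .const _, .const _]
        have h1 := hr _ hf _ _ (hxy k)
        convert h1 using 2 <;> funext j <;> by_cases hj : j = k <;> simp [hj, hk]
    simpa using key Finset.univ
  exact ⟨e.symm ⟨r, hc⟩, by simp⟩

theorem gik_upper {Φ : Fam} {K L : Type} [PartialOrder K] [Preorder L] (ι : K → L)
    (hι : ∀ a b, ι a ≤ ι b ↔ a ≤ b) (k : K)
    (hk : ∀ a, k ≤ a) (hr : ∀ y, ι k ≤ y → ∃ a, ι a = y) (h : GIK Φ L) : GIK Φ K := by
  obtain ⟨G, hG, hfin, H, hK, ⟨e⟩⟩ := h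
  let F : K ↪o {S : Subgroup G // (e (ι k)).1 ≤ S} :=
    OrderEmbedding.ofMapLEIff (fun a => ⟨(e (ι a)).1, e.le_iff_le.2 ((hι _ _).2 (hk a))⟩)
      fun a b => e.le_iff_le.trans (hι a b)
  refine ⟨G, hG, hfin, (e (ι k)).1, hK, ⟨RelIso.ofSurjective F ?_⟩⟩
  rintro ⟨S, hS⟩
  obtain ⟨a, ha⟩ := hr (e.symm ⟨S, (e (ι k)).2.trans hS⟩) (by
    rw [← e.le_iff_le, OrderIso.apply_symm_apply]
    exact hS)
  refine ⟨a, Subtype.ext ?_⟩
  change (e (ι a)).1 = S
  rw [ha, OrderIso.apply_symm_apply]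

theorem gik_of_PP {Φ : Fam} {K : Type} [Lattice K] [BoundedOrder K] (h : GIK Φ (PP K)) :
    GIK Φ K := by
  refine gik_upper (PP.old : K → PP K) (fun a b => Iff.rfl) ⊥ (fun a => bot_le) ?_ h
  rintro (_ | a | ⟨k, i⟩) hy
  · exact hy.elim
  · exact ⟨a, rfl⟩
  · exact hy.elim

/-- The algebra form. -/
theorem gik_of_con {Φ : Fam} {K : Type} [Lattice K] [BoundedOrder K]
    (h : P183A.NoMod (⊥ : K) ⊤) {A : FiniteAlgebra} (e : PP K ≃o A.Con)
    (hA : ∀ (G : Type) [Group G], PolGroup A G → KGrp Φ G) : GIK Φ (PP K) :=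
  gi_of_rep PP.simple (PP.coatom 0) (PP.coatom 1) (PP.atom_inf 0 1 (by decide))
    (PP.not_modular h) _ A.finite_carrier _ _ (repM e) fun G _ φ h1 h2 h3 => hA G ⟨φ, h1, h2, h3⟩

/-- The three forms of the conclusion for one lattice. -/
theorem three {Φ : Fam} {K : Type} [Lattice K] [BoundedOrder K] [Finite K]
    (h : P183A.NoMod (⊥ : K) ⊤) (hK : ¬ GIK Φ K) :
    ∃ (L : Type) (_ : Lattice L) (_ : Finite L) (_ : Nonempty L),
      (∀ (G : Type) [Group G] [Finite G] (H : Subgroup G), KGrp Φ G →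
        IsEmpty (L ≃o {K : Subgroup G // H ≤ K})) ∧
      (∀ A : FiniteAlgebra, (∀ (G : Type) [Group G], PolGroup A G → KGrp Φ G) →
        IsEmpty (L ≃o A.Con)) ∧
      ((∀ (S : Type) [Group S] [Finite S], IsSimpleGroup S → (∃ a b : S, a * b ≠ b * a) → Φ S) →
        ¬ Representable L) := by
  have h2 : ∀ A : FiniteAlgebra, (∀ (G : Type) [Group G], PolGroup A G → KGrp Φ G) →
      IsEmpty (PP K ≃o A.Con) := fun A hA => ⟨fun e => hK (gik_of_PP (gik_of_con h e hA))⟩
  refine ⟨PP K, inferInstance, inferInstance, ⟨PP.bot⟩,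
    fun G _ _ H hG => ⟨fun e => hK (gik_of_PP ⟨G, _, ‹_›, H, hG, ⟨e⟩⟩)⟩, h2, ?_⟩
  rintro hc ⟨A, ⟨e⟩⟩
  refine (h2 A ?_).false e
  rintro G _ ⟨φ, h1, -⟩ S _ hs hn ⟨B, f, hf⟩
  have := A.finite_carrier
  have := Finite.of_injective φ h1
  have := Finite.of_surjective f hf
  exact hc S hs hn

end Vale.Agent.P183PK
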