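import Vale.Agent.P183.Defs
import Mathlib.Algebra.Group.Defs

/-!
Unary polynomial operations of a finite algebra.
-/

namespace Vale.Agent.P183PK

open Vale.Agent.P183

/-- The unary polynomial operations of `A`: built from the identity and the constants by the basic
operations. -/
inductive Pol1 (A : FiniteAlgebra) : (A.carrier → A.carrier) → Prop
  | id : Pol1 A id
  | const (c : A.carrier) : Pol1 A fun _ => c
  | op (i : A.index) (g : Fin (A.arity i) → A.carrier → A.carrier) (h : ∀ j, Pol1 A (g j)) :
      Pol1 A fun x => A.op i fun j => g j x

/-- `G` is isomorphic to a group of unary polynomial operations of `A` under composition (its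
identity element is an idempotent operation, not necessarily the identity map). -/
def PolGroup (A : FiniteAlgebra) (G : Type) [Group G] : Prop :=
  ∃ φ : G → A.carrier → A.carrier, Function.Injective φ ∧ (∀ g h, φ (g * h) = φ g ∘ φ h) ∧
    ∀ g, Pol1 A (φ g)

end Vale.Agent.P183PK
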